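import Mathlib

/-!
The random triangle removal process, as a probability mass function on graphs.
-/

set_option autoImplicit false

open scoped Classical

namespace Vale.Agent.P046

/-- `removeTriangle G t` is `G` with all edges inside the vertex set `t` deleted. -/
noncomputable def removeTriangle {n : ℕ} (G : SimpleGraph (Fin n)) (t : Finset (Fin n)) :
    SimpleGraph (Fin n) :=
  G.deleteEdges (t.sym2 : Set (Sym2 (Fin n)))

/-- The (finite) set of triangles of `G`, each given by its vertex set. -/
noncomputable def triangles {n : ℕ} (G : SimpleGraph (Fin n)) : Finset (Finset (Fin n)) :=
  G.cliqueFinset 3

/-- One step of the process: a uniformly random triangle of the current graph is chosen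
and its three edges are deleted; if there is no triangle, nothing happens. -/
noncomputable def step {n : ℕ} (G : SimpleGraph (Fin n)) : PMF (SimpleGraph (Fin n)) :=
  if h : (triangles G).Nonempty then
    (PMF.uniformOfFinset (triangles G) h).map (removeTriangle G)
  else PMF.pure G

/-- `run k G` is the law of the graph after `k` steps of the process started at `G`. -/
noncomputable def run {n : ℕ} : ℕ → SimpleGraph (Fin n) → PMF (SimpleGraph (Fin n))
  | 0, G => PMF.pure G
  | k + 1, G => (step G).bind (run k)

/-- The law of the final graph of the random triangle removal process started at `K_n`.
Every step that finds a triangle deletes three edges, so after `n.choose 2` steps the process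
has stopped. -/
noncomputable def finalGraph (n : ℕ) : PMF (SimpleGraph (Fin n)) :=
  run (n.choose 2) ⊤

/-- Number of edges. -/
noncomputable def numEdges {n : ℕ} (G : SimpleGraph (Fin n)) : ℕ := G.edgeFinset.card

/-- The law of `F_n`, the number of edges of the final graph. -/
noncomputable def finalEdges (n : ℕ) : PMF ℕ := (finalGraph n).map numEdges

end Vale.Agent.P046
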